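import Mathlib

/-!
# P054: distinct distances for sets in `ℝ^d` with many collinear points
-/

namespace Vale.Agent.Results.P054.RichLine

open Finset

variable {d : ℕ}

lemma card_le_of_fibers (Q : Finset (EuclideanSpace ℝ (Fin d))) (x : EuclideanSpace ℝ (Fin d))
    (h3 : ∀ a ∈ Q, ∀ b ∈ Q, ∀ c ∈ Q, a ≠ b → a ≠ c → b ≠ c →
      dist a x = dist b x → dist a x = dist c x → False) :
    Q.card ≤ 2 * (Q.image (fun y => dist y x)).card := by
  apply Finset.card_le_mul_card_image
  intro r _
  by_contra hcon
  rw [not_le, Finset.two_lt_card] at hcon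
  obtain ⟨a, ha, b, hb, c, hc, hab, hac, hbc⟩ := hcon
  rw [Finset.mem_filter] at ha hb hc
  exact h3 a ha.1 b hb.1 c hc.1 hab hac hbc (ha.2.trans hb.2.symm) (ha.2.trans hc.2.symm)

lemma line (P L : Finset (EuclideanSpace ℝ (Fin d))) (hL : L ⊆ P)
    (hcol : Collinear ℝ (L : Set (EuclideanSpace ℝ (Fin d)))) (x : EuclideanSpace ℝ (Fin d)) :
    L.card - 1 ≤ 2 * ((P.erase x).image (fun y => dist y x)).card := by
  have h1 : L.card - 1 ≤ (L.erase x).card := Finset.pred_card_le_card_erase
  have h2 := card_le_of_fibers (L.erase x) x (by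
    intro p₁ h₁ p₂ h₂ p h hab hac hbc e1 e2
    have hs : EuclideanGeometry.Cospherical ({p₁, p₂, p} : Set (EuclideanSpace ℝ (Fin d))) := by
      refine ⟨x, dist p₁ x, ?_⟩
      intro q hq
      simp only [Set.mem_insert_iff, Set.mem_singleton_iff] at hq
      rcases hq with rfl | rfl | rfl
      · rfl
      · exact e1.symm
      · exact e2.symm
    have hai := hs.affineIndependent_of_ne hab hac hbc
    rw [affineIndependent_iff_not_collinear_set] at hai
    apply hai
    apply hcol.subset
    intro q hq
    simp only [Set.mem_insert_iff, Set.mem_singleton_iff] at hq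
    rcases hq with rfl | rfl | rfl
    · exact Finset.mem_of_mem_erase h₁
    · exact Finset.mem_of_mem_erase h₂
    · exact Finset.mem_of_mem_erase h)
  have h4 : ((L.erase x).image (fun y => dist y x)).card
      ≤ ((P.erase x).image (fun y => dist y x)).card :=
    Finset.card_le_card (Finset.image_subset_image (Finset.erase_subset_erase x hL))
  omega

/-- Let `P` be a finite set in `ℝ^d` and `L ⊆ P` a collinear subset.
(1) Every point `x` has at least `(|L| - 1)/2` distinct distances to the other points of `P`.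
(2) `P` determines at least `(|L| - 1)/2` distinct distances. -/
theorem result (d : ℕ) (P L : Finset (EuclideanSpace ℝ (Fin d))) (hL : L ⊆ P)
    (hcol : Collinear ℝ (L : Set (EuclideanSpace ℝ (Fin d)))) :
    (∀ x : EuclideanSpace ℝ (Fin d),
      L.card - 1 ≤ 2 * ((P.erase x).image (fun y => dist y x)).card) ∧
    L.card - 1 ≤ 2 * (P.offDiag.image (fun q => dist q.1 q.2)).card := by
  refine ⟨line P L hL hcol, ?_⟩
  rcases L.eq_empty_or_nonempty with rfl | ⟨x, hx⟩
  · simp
  · refine le_trans (line P L hL hcol x) ?_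
    apply Nat.mul_le_mul_left
    apply Finset.card_le_card
    intro r hr
    obtain ⟨y, hy, rfl⟩ := Finset.mem_image.mp hr
    rw [Finset.mem_erase] at hy
    exact Finset.mem_image.mpr ⟨(y, x), Finset.mem_offDiag.mpr ⟨hy.2, hL hx, hy.1⟩, rfl⟩

end Vale.Agent.Results.P054.RichLine
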